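import Vale.Agent.P011.E6O.Land1
import Vale.Agent.P011.W.Eich

/-!
The reduced norms of the unitary group of a cyclic algebra of degree three with a unitary
involution.
-/

open Matrix

namespace Vale.Agent.P011.E6O

variable {K E : Type} [Field K] [StarRing K] [Field E] [Algebra K E] (S : Dat K E)

theorem unit_aux {R : Type} [DivisionRing R] [StarRing R] {z : R} (hz0 : z ≠ 0)
    (hcomm : z * star z = star z * z) : z * (star z)⁻¹ * star (z * (star z)⁻¹) = 1 := by
  have hzs0 : star z ≠ 0 := by rwa [Ne, star_eq_zero]
  rw [star_mul, star_inv₀, star_star]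
  have h1 : (star z)⁻¹ * z⁻¹ = z⁻¹ * (star z)⁻¹ := by
    rw [← _root_.mul_inv_rev, ← _root_.mul_inv_rev, hcomm]
  calc z * (star z)⁻¹ * (z⁻¹ * star z) = z * ((star z)⁻¹ * z⁻¹) * star z := by
        simp only [mul_assoc]
    _ = 1 := by
        rw [h1, ← mul_assoc, mul_inv_cancel₀ hz0, one_mul, inv_mul_cancel₀ hzs0]

/-- A unitary element from an element which is not skew up to conjugation. -/
theorem exists_unit_of [CharZero K] {x : S.D} {y : K} (hx : (S.f x).det = algebraMap K E y)
    (hy : star y ≠ -y) : ∃ w : S.D, w * star w = 1 ∧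
      (S.f w).det * algebraMap K E (star y) = algebraMap K E y := by
  have hcD : CharZero S.D := charZero_of_injective_algebraMap (algebraMap K S.D).injective
  let φ : S.D →ₗ[K] S.D := LinearMap.mulRight K x + LinearMap.mulLeft K (star x)
  have hφ : ∀ s, φ s = s * x + star x * s := fun s => rfl
  have hxs : (S.f (star x)).det = algebraMap K E (star y) := by
    rw [Dat.f_star, S.det_dag, hx, S.sK]
  have hinj : Function.Injective φ := by
    rw [injective_iff_map_eq_zero]
    intro s hs
    by_contra h0
    have h1 : s * x = -(star x * s) := by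
      rw [hφ] at hs
      exact eq_neg_of_add_eq_zero_left hs
    have h2 := congrArg (fun m => (S.f m).det) h1
    simp only [map_mul, map_neg, Matrix.det_mul, Matrix.det_neg, hx, hxs] at h2
    rw [Fintype.card_fin] at h2
    have h3 := S.det_ne h0
    have h4 : algebraMap K E (y + star y) = 0 := by
      rw [map_add]
      apply mul_left_cancel₀ h3
      linear_combination h2
    apply hy
    have h5 := (map_eq_zero _).1 h4
    exact eq_neg_of_add_eq_zero_right h5
  obtain ⟨s, hs⟩ := LinearMap.surjective_of_injective hinj 2
  have hst : star s = s := by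
    apply hinj
    rw [hs, hφ]
    have h1 := congrArg star hs
    rw [hφ, star_add, star_mul, star_mul, star_star] at h1
    rw [add_comm, h1]
    exact star_ofNat 2
  rw [hφ] at hs
  set z : S.D := s * x with hz
  have hzs : star z = star x * s := by rw [hz, star_mul, hst]
  rw [← hzs] at hs
  have hs' : star z = 2 - z := eq_sub_of_add_eq' hs
  have hcomm : z * star z = star z * z := by
    rw [hs', mul_sub, sub_mul, mul_two, two_mul]
  have hz0 : z ≠ 0 := by
    intro h
    rw [h, star_zero, add_zero] at hs
    exact two_ne_zero hs.symm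
  have hzs0 : star z ≠ 0 := by rwa [Ne, star_eq_zero]
  refine ⟨z * (star z)⁻¹, unit_aux hz0 hcomm, ?_⟩
  · have h1 : (S.f (z * (star z)⁻¹)).det * (S.f (star z)).det = (S.f z).det := by
      rw [← Matrix.det_mul, ← map_mul, mul_assoc, inv_mul_cancel₀ hzs0, mul_one]
    have h2 : (S.f z).det = (S.f s).det * algebraMap K E y := by
      rw [hz, map_mul, Matrix.det_mul, hx]
    have h3 : (S.f (star z)).det = (S.f s).det * algebraMap K E (star y) := by
      rw [hzs, map_mul, Matrix.det_mul, hxs, mul_comm]
    have h4 : (S.f s).det ≠ 0 := by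
      apply S.det_ne
      rintro rfl
      exact hz0 (by rw [hz, zero_mul])
    rw [h2, h3] at h1
    apply mul_left_cancel₀ h4
    linear_combination h1

/-- **The reduced norm maps the unitary group onto the norm one group of the centre.** -/
theorem exists_unit [NumberField K] {u : K} (hu : u * star u = 1) :
    ∃ w : S.D, w * star w = 1 ∧ (S.f w).det = algebraMap K E u := by
  by_cases h1 : u = -1
  · refine ⟨-1, ?_, ?_⟩
    · rw [star_neg, star_one, neg_mul_neg, one_mul]
    · rw [h1, map_neg, map_neg, map_one, map_one, Matrix.det_neg, Matrix.det_one,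
        Fintype.card_fin]
      norm_num
  · have hy0 : (1 + u : K) ≠ 0 := fun h => h1 (eq_neg_of_add_eq_zero_right h)
    have hy : star (1 + u) ≠ -(1 + u) := by
      intro h
      rw [star_add, star_one] at h
      have h2 : (1 + u) * (1 + u) = 0 := by linear_combination hu * (-1) + u * h + hu - hu
      rcases mul_self_eq_zero.1 h2 with h3
      exact hy0 h3
    obtain ⟨x, hx⟩ := W.eichler (F := K) (D := S.D) (p := 3) (e := 1) Nat.prime_three
      (by rw [S.finrank_D]; norm_num) (1 + u) hy0 (fun h => absurd h (by norm_num))
    rw [pow_one] at hx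
    obtain ⟨w, hw1, hw2⟩ := exists_unit_of S (hx E S.f) hy
    refine ⟨w, hw1, ?_⟩
    have hys : (star (1 + u) : K) ≠ 0 := by rwa [Ne, star_eq_zero]
    have h3 : algebraMap K E (star (1 + u)) ≠ 0 := by
      rwa [Ne, map_eq_zero]
    apply mul_right_cancel₀ h3
    rw [hw2, ← map_mul]
    congr 1
    rw [star_add, star_one]
    linear_combination -hu

end Vale.Agent.P011.E6O
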